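import Vale.Agent.P108.Sk.Defs
import Vale.Agent.P108.Area.Coord
import Vale.Agent.P108.Por.PeakSum

/-!
# P108 skeleton: the blocks

One proposition per block; `Sk/Main.lean` proves the final theorem from them.
-/

open MeasureTheory Filter Set Topology

namespace Vale.Agent.P108.Sk

open Vale.Agent.P108 Vale.Agent.P108.Dyn Vale.Agent.P108.H786 P108C

/-- **[PEAKLINE]** for a fixed pattern the peak event is very unlikely on every probing line. -/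
def PeakLine : Prop :=
  ∃ c₁ k0 : ℝ, 0 < c₁ ∧ ∀ k ≥ k0, ∀ s ∈ Icc (0 : ℝ) 1, ∀ (R : ℕ) (m n i j : ℤ) (S : Finset ℤ)
    (c : ℝ), s0 k ≤ R → c ∈ Ico (0 : ℝ) 1 →
    volume {t | t ∈ Ico (0 : ℝ) 1 ∧ PeakPat k s (ao k (Area.pt k m (c, t))) R m n i j S} ≤
      ENNReal.ofReal (3 * (1 - (c₁ * k ^ (cb - 1)) / 24) ^ (R / 48 / 2))

/-- **[PEAK]** peaks with frozen site `-1` of radius `s0 2^l` are very unlikely
(from [PEAKLINE] by `Por.peak_mass_le`). -/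
def PeakBound : Prop :=
  ∃ c₁ k0 : ℝ, 0 < c₁ ∧ ∀ k ≥ k0, ∀ s ∈ Icc (0 : ℝ) 1, ∀ l : ℕ,
    mQ {z | ∃ n i j, Peak k s (ao k z) (s0 k * 2 ^ l) 0 n i j} ≤
      ENNReal.ofReal (Por.pkTerm cb (c₁ / 24) (1 / 96) 6 3 k l)

/-- **[NEAR]** for a generic parameter the nearly undecided set is small. -/
def NearBound : Prop :=
  ∃ k0 : ℝ, ∀ k ≥ k0, ∃ s ∈ Icc (0 : ℝ) 1, mQ.real (Near k s) ≤ k⁻¹

/-- **[EMASS]** (uses [PEAK]) the exclusion set has small density. -/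
def EBound : Prop :=
  ∃ k0 : ℝ, ∀ k ≥ k0, ∀ s ∈ Icc (0 : ℝ) 1,
    mQ.real {z | (0 : ℤ) ∈ Eset k s (ao k z)} ≤ k ^ (-(1 / 20000) : ℝ)

/-- **[NCMASS]** non-clean times are rare, also in the sense of the maximal function. -/
def NcBound : Prop :=
  ∃ k0 : ℝ, ∀ k ≥ k0, ∀ s ∈ Icc (0 : ℝ) 1,
    mQ.real {z | (0 : ℤ) ∈ NC k s (ao k z)} ≤ k ^ (-(1 / 20000) : ℝ) ∧
    mQ.real {z | NcMax k s (ao k z)} ≤ k ^ (-(1 / 20000) : ℝ)

/-- **[EQUI]** the bad set and the non-clean set are equivariant and measurable. -/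
def EquiB : Prop :=
  ∀ k s : ℝ, 1 ≤ k → Equi (Tz k) (fun z => Bset k s (ao k z)) ∧
    Equi (Tz k) (fun z => NC k s (ao k z))

/-- **[LONG]** the closure of a union of long zones is a union of long zones. -/
def LongCl : Prop :=
  (∀ (c : ℝ) (n s : ℕ) (u w : ℤ) (S : Set ℤ), 0 < c → LongZ s u w S → LongZ s u w (Cl c n S)) ∧
  (∀ (c : ℝ) (s : ℕ) (u w : ℤ) (S : Set ℤ), 0 < c →
    (∀ i ∈ S, ∃ b : ℤ, b ≤ i ∧ i < b + s ∧ ∀ t, b ≤ t → t < b + s → t ∈ S) →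
    LongZ s u w (ClInf c S ∩ Ico u w))

/-- **[DET]** the cone condition at both ends of every good window. -/
def DetCone : Prop :=
  ∃ k0 : ℝ, ∀ k ≥ k0, ∀ (s : ℝ) (a : ℤ → ℝ) (u w : ℤ) (X : Set ℤ), Setting k s a u w X →
    ∀ i j, u ≤ i → i ≤ j → j < w → GoodWin X i j →
      ¬ Low k s a (.c1 i j) ∧ ¬ Low k s a (.c2 i j)

/-- **[GROW]** growth towards a sparse clean end. -/
def DetGrow : Prop :=
  ∃ k0 : ℝ, ∀ k ≥ k0, ∀ (s : ℝ) (a : ℤ → ℝ) (u w : ℤ) (X : Set ℤ), Setting k s a u w X →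
    ∀ i j, u ≤ i → i ≤ j → j < w → GoodWin X i j →
    ((∀ y : ℕ, 1 ≤ y → i + y ≤ j + 1 → (ms X (j + 1 - y) (j + 1) : ℝ) ≤ c1 * y ∧
        (ms (NC k s a) (j + 1 - y) (j + 1) : ℝ) < 1 / 20 * y) →
      ∀ m, i ≤ m → m ≤ j + 1 →
        k ^ (9 / 10 * ((j + 1 - m : ℤ) : ℝ)) * |D a i (m - 1)| ≤ |D a i j|) ∧
    ((∀ y : ℕ, 1 ≤ y → i + y ≤ j + 1 → (ms X i (i + y) : ℝ) ≤ c1 * y ∧
        (ms (NC k s a) i (i + y) : ℝ) < 1 / 20 * y) →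
      ∀ m, i ≤ m → m ≤ j + 1 →
        k ^ (9 / 10 * ((m - i : ℤ) : ℝ)) * |D a m j| ≤ |D a i j|)

/-- **[FREEZE]** the defects far from the base are the same for two orbits which are close near
the base, if the decisions of the first one are not nearly equalities. -/
def Freeze : Prop :=
  ∃ k0 : ℝ, ∀ k ≥ k0, ∀ s ∈ Icc (0 : ℝ) 1, ∀ z z' : ℝ × ℝ, z ∉ Near k s →
    ∀ (o : ℤ) (R : ℕ), (o + cZ * R < 0 ∨ 0 < o - cZ * R) →
    (∀ t : ℤ, |t - o| ≤ 2 * R → |orb k z' t - orb k z t| ≤ k ^ (-(|(t : ℝ)| / 2))) →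
    (Defect k s (ao k z) o R ↔ Defect k s (ao k z') o R)

/-- **[DECOR]** the first-scale events on the two sides of a clean base are decorrelated. -/
def Decor : Prop :=
  ∃ C k0 : ℝ, 0 ≤ C ∧ ∀ k ≥ k0, ∀ s ∈ Icc (0 : ℝ) 1, ∀ N : ℕ,
    mQ.real ({z | (0 : ℤ) ∉ Bset k s (ao k z) ∧ (∃ r ≤ N, LeftEv cc (Bm k s (ao k z)) 0 r) ∧
        (∃ r ≤ N, RightEv cc (Bp k s (ao k z)) 0 r)} \ Nset k s) ≤
      C * mQ.real {z | ∃ r ≤ N, LeftEv cc (Bm k s (ao k z)) 0 r} *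
        mQ.real {z | ∃ r ≤ N, RightEv cc (Bp k s (ao k z)) 0 r}

end Vale.Agent.P108.Sk
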