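import Vale.Agent.P108.Sk.Blocks

/-!
# P108 skeleton: composition of the blocks
-/

open MeasureTheory Filter Set Topology

namespace Vale.Agent.P108.Sk

open Vale.Agent.P108 Vale.Agent.P108.Dyn Vale.Agent.P108.H786 P108C

lemma one_le_s0 {k : ℝ} (hk : 1 < k) : 1 ≤ s0 k := by
  unfold s0 H786.s0
  rw [Nat.one_le_ceil_iff]
  have h1 : 0 < Real.log k := Real.log_pos hk
  have h2 : 0 < k := by linarith
  positivity

lemma Defect.s0_le {k s : ℝ} {a : ℤ → ℝ} {o : ℤ} {R : ℕ} (h : Defect k s a o R) : s0 k ≤ R := by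
  rcases h with h | ⟨l, h, -⟩ | ⟨l, h, -⟩
  · exact h.1.ge
  · rw [h]; exact Nat.le_mul_of_pos_right _ (by positivity)
  · rw [h]; exact Nat.le_mul_of_pos_right _ (by positivity)

lemma Bset_subset_Eset {k s : ℝ} {a : ℤ → ℝ} : Bset k s a ⊆ Eset k s a := by
  rintro t ⟨o, R, h1, h2⟩
  refine ⟨o, R, h1, h2.trans ?_⟩
  have : (0 : ℤ) ≤ R := by positivity
  have e : ((cZ : ℕ) : ℤ) = 100 := rfl
  rw [e]
  linarith

lemma Bm_subset {k s : ℝ} {a : ℤ → ℝ} : Bm k s a ⊆ Bset k s a := by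
  rintro t ⟨o, R, h1, h2, -⟩; exact ⟨o, R, h1, h2⟩

lemma Bp_subset {k s : ℝ} {a : ℤ → ℝ} : Bp k s a ⊆ Bset k s a := by
  rintro t ⟨o, R, h1, h2, -⟩; exact ⟨o, R, h1, h2⟩

/-- outside the exclusion set, the bad set on the left of the base is `Bm` -/
lemma mem_Bm_of {k s : ℝ} {a : ℤ → ℝ} (h0 : (0 : ℤ) ∉ Eset k s a) {i : ℤ} (hi : i < 0)
    (h : i ∈ Bset k s a) : i ∈ Bm k s a := by
  obtain ⟨o, R, h1, h2⟩ := h
  refine ⟨o, R, h1, h2, ?_⟩
  by_contra h3
  refine h0 ⟨o, R, h1, ?_⟩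
  have e : ((cZ : ℕ) : ℤ) = 100 := rfl
  rw [e] at h3 ⊢
  have hR : (0 : ℤ) ≤ R := by positivity
  rw [abs_le] at h2 ⊢
  constructor
  · linarith [h2.1]
  · linarith [h2.2]

lemma mem_Bp_of {k s : ℝ} {a : ℤ → ℝ} (h0 : (0 : ℤ) ∉ Eset k s a) {i : ℤ} (hi : 0 < i)
    (h : i ∈ Bset k s a) : i ∈ Bp k s a := by
  obtain ⟨o, R, h1, h2⟩ := h
  refine ⟨o, R, h1, h2, ?_⟩
  by_contra h3
  refine h0 ⟨o, R, h1, ?_⟩
  have e : ((cZ : ℕ) : ℤ) = 100 := rfl
  rw [e] at h3 ⊢
  have hR : (0 : ℤ) ≤ R := by positivity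
  rw [abs_le] at h2 ⊢
  constructor
  · linarith [h2.1]
  · linarith [h2.2]

lemma abs_ao_le {k : ℝ} (hk : 2 ≤ k) (z : ℝ × ℝ) (t : ℤ) : |ao k z t| ≤ 8 * k := by
  have h := FT.abs_a_le k (orb k z t)
  rw [abs_of_nonneg (by linarith : (0 : ℝ) ≤ k)] at h
  unfold ao
  nlinarith [Real.pi_lt_d2]

/-- the zones of the defects are long -/
lemma Bset_long {k s : ℝ} (hk : 1 < k) {a : ℤ → ℝ} : ∀ i ∈ Bset k s a, ∃ b : ℤ, b ≤ i ∧
    i < b + s0 k ∧ ∀ t, b ≤ t → t < b + s0 k → t ∈ Bset k s a := by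
  rintro i ⟨o, R, h1, h2⟩
  have h3 : (s0 k : ℤ) ≤ R := by exact_mod_cast h1.s0_le
  have h0 : (1 : ℤ) ≤ s0 k := by exact_mod_cast one_le_s0 hk
  rw [abs_le] at h2
  rcases lt_or_ge i (o - R + s0 k) with h | h
  · refine ⟨o - R, by linarith [h2.1], h, fun t ht1 ht2 => ⟨o, R, h1, ?_⟩⟩
    rw [abs_le]; constructor <;> linarith
  · refine ⟨i + 1 - s0 k, by omega, by omega, fun t ht1 ht2 => ⟨o, R, h1, ?_⟩⟩
    rw [abs_le]; constructor <;> linarith [h2.2]

lemma NClosed_inter_Ico {c : ℝ} (hc : 0 < c) {X : Set ℤ} {n : ℕ} (h : NClosed c n X) (u w : ℤ) :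
    NClosed c n (X ∩ Ico u w) := h.inter (nclosed_Ico hc u w)

/-- the setting of the deterministic part for the full closure -/
lemma setting_ClInf (hL : LongCl) {k s : ℝ} (hk : 2 ≤ k) (hs : s ∈ Icc (0 : ℝ) 1) (z : ℝ × ℝ)
    (u w : ℤ) : Setting k s (ao k z) u w (ClInf cc (Bset k s (ao k z)) ∩ Ico u w) where
  hs0 := hs.1
  hs1 := hs.2
  bd := abs_ao_le hk z
  closed := fun n => NClosed_inter_Ico (by norm_num) (nclosed_ClInf cc n _) u w
  long := hL.2 cc (s0 k) u w _ (by norm_num) (Bset_long (by linarith))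
  bad := inter_subset_inter_left _ (subset_ClInf cc _)

/-- the end ratio bound at a clean right end -/
lemma ratio_of_det {k s : ℝ} (hk : 16 ≤ k) (hk' : 2 ≤ k ^ (9 / 10000 : ℝ))
    (hs : s ∈ Icc (0 : ℝ) 1)
    (hD : ∀ (s : ℝ) (a : ℤ → ℝ) (u w : ℤ) (X : Set ℤ), Setting k s a u w X →
      ∀ i j, u ≤ i → i ≤ j → j < w → GoodWin X i j →
      ¬ Low k s a (.c1 i j) ∧ ¬ Low k s a (.c2 i j))
    (hL : LongCl) (z : ℝ × ℝ) (n : ℕ) (hn : 1 ≤ n)
    (hG : GoodEnds (c0 / 2) (ClInf cc (Bset k s (ao k z))) n)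
    (hY : (n - 1 : ℤ) ∉ NC k s (ao k z)) :
    k ^ (999 / 1000 : ℝ) * |H504.D (ao k z) 0 (n - 2)| ≤ |H504.D (ao k z) 0 (n - 1)| := by
  have hk0 : 0 < k := by linarith
  set a := ao k z with ha
  -- the coefficient at the right end
  have h1 : k ^ (999 / 1000 : ℝ) + 1 ≤ |a (n - 1)| := by
    have h2 : ¬ (|a (n - 1)| < (1 + s) * k ^ (1 - ce)) := hY
    rw [not_lt] at h2
    have h3 : k ^ (1 - ce) ≤ (1 + s) * k ^ (1 - ce) := by
      have : 0 ≤ k ^ (1 - ce) := by positivity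
      nlinarith [hs.1]
    have h4 : k ^ (999 / 1000 : ℝ) * k ^ (9 / 10000 : ℝ) ≤ k ^ (1 - ce) := by
      rw [← Real.rpow_add hk0]
      exact Real.rpow_le_rpow_of_exponent_le (by linarith) (by norm_num)
    have h7 : (1 : ℝ) ≤ k ^ (999 / 1000 : ℝ) := Real.one_le_rpow (by linarith) (by norm_num)
    have h8 : k ^ (999 / 1000 : ℝ) * 2 ≤ k ^ (999 / 1000 : ℝ) * k ^ (9 / 10000 : ℝ) :=
      mul_le_mul_of_nonneg_left hk' (by linarith)
    have h9 := h8.trans (h4.trans (h3.trans h2))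
    linarith
  -- the previous ratio
  have h2 : |H504.D a 0 (n - 3)| ≤ |H504.D a 0 (n - 2)| := by
    rcases Nat.lt_or_ge n 2 with h | h
    · have h3 : n = 1 := by omega
      subst h3
      have e : H504.D a 0 (((1 : ℕ) : ℤ) - 3) = 0 := H504.D_of_le a (by norm_num)
      rw [e, abs_zero]
      exact abs_nonneg _
    · have hset := setting_ClInf (k := k) hL (by linarith) hs z 0 n
      rw [← ha] at hset
      set X := ClInf cc (Bset k s a) with hX
      have hgood : GoodWin (X ∩ Ico 0 (n : ℤ)) 0 (n - 2) := by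
        intro y hy1 hy2
        have hy3 : y ≤ n - 1 := by omega
        constructor
        · have h3 := hG.1 y hy1 (by omega)
          have h4 : ms (X ∩ Ico 0 (n : ℤ)) 0 (0 + y) ≤ ms X 0 y := by
            rw [zero_add]
            exact ms_le_of fun i _ _ hi => hi.1
          have h5 : (ms (X ∩ Ico 0 (n : ℤ)) 0 (0 + y) : ℝ) ≤ ms X 0 y := by exact_mod_cast h4
          have h6 : (1 : ℝ) ≤ y := by exact_mod_cast hy1
          have h7 : c0 / 2 * y ≤ c0 * y := by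
            have : (0 : ℝ) < c0 := by norm_num
            nlinarith
          exact h5.trans_lt (h3.trans_le h7)
        · have h3 := hG.2 (y + 1) (by omega) (by omega)
          have h4 : ms (X ∩ Ico 0 (n : ℤ)) ((n : ℤ) - 2 + 1 - y) ((n : ℤ) - 2 + 1) ≤
              ms X (n - ((y + 1 : ℕ) : ℤ)) n :=
            (ms_mono inter_subset_left _ _).trans (ms_mono' (by push_cast; omega) (by omega))
          have h5 : (ms (X ∩ Ico 0 (n : ℤ)) ((n : ℤ) - 2 + 1 - y) ((n : ℤ) - 2 + 1) : ℝ) ≤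
              ms X (n - ((y + 1 : ℕ) : ℤ)) n := by exact_mod_cast h4
          have h6 : (1 : ℝ) ≤ y := by exact_mod_cast hy1
          have h7 : c0 / 2 * ((y + 1 : ℕ) : ℝ) ≤ c0 * y := by
            push_cast
            have : (0 : ℝ) < c0 := by norm_num
            nlinarith
          exact h5.trans_lt (h3.trans_le h7)
      have h3 := (hD s a 0 n _ hset 0 (n - 2) le_rfl (by omega) (by omega) hgood).1
      unfold Low at h3
      simp only [Dec.num, Dec.den, not_lt] at h3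
      have e : (n : ℤ) - 2 - 1 = n - 3 := by ring
      rw [e] at h3
      have h4 : (1 : ℝ) ≤ k ^ (cβ / 2) := Real.one_le_rpow (by linarith) (by norm_num)
      have h5 : 0 ≤ |H504.D a 0 (n - 3)| := abs_nonneg _
      have h6 : |H504.D a 0 (n - 3)| ≤ k ^ (cβ / 2) * |H504.D a 0 (n - 3)| := by nlinarith
      have h7 : k ^ (cβ / 2) * |H504.D a 0 (n - 3)| ≤
          (1 + s) * (k ^ (cβ / 2) * |H504.D a 0 (n - 3)|) := by
        have : 0 ≤ k ^ (cβ / 2) * |H504.D a 0 (n - 3)| := by positivity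
        nlinarith [hs.1]
      exact h6.trans (h7.trans h3)
  have h3 : H504.D a 0 (n - 1) = a (n - 1) * H504.D a 0 (n - 2) - H504.D a 0 (n - 3) := by
    have := H504.D_right a (p := 0) (q := n - 1) (by omega)
    rw [this]
    have e1 : (n : ℤ) - 1 - 1 = n - 2 := by ring
    have e2 : (n : ℤ) - 1 - 2 = n - 3 := by ring
    rw [e1, e2]
  have h4 : |a (n - 1)| * |H504.D a 0 (n - 2)| - |H504.D a 0 (n - 3)| ≤
      |H504.D a 0 (n - 1)| := by
    rw [h3, ← abs_mul]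
    exact abs_sub_abs_le_abs_sub _ _
  have h5 : 0 ≤ |H504.D a 0 (n - 2)| := abs_nonneg _
  nlinarith

/-- **The composition theorem.** -/
theorem ent_ge_of_blocks (hN : NearBound) (hE : EBound) (hC : NcBound) (hQ : EquiB)
    (hL : LongCl) (hD : DetCone) (hdec : Decor) :
    ∃ k0 : ℝ, ∀ k ≥ k0, 99 / 100 * Real.log k ≤ ent k := by
  obtain ⟨k1, hN⟩ := hN
  obtain ⟨k2, hE⟩ := hE
  obtain ⟨k3, hC⟩ := hC
  obtain ⟨k4, hD⟩ := hD
  obtain ⟨C, k5, hC0, hdec⟩ := hdec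
  -- the density of the basic bad set tends to zero
  set F : ℝ → ℝ := fun k => 4 * k ^ (-(1 / 20000) : ℝ) with hF
  have hFt : Tendsto F atTop (𝓝 0) := by
    have h := (tendsto_rpow_neg_atTop (show (0 : ℝ) < 1 / 20000 by norm_num)).const_mul 4
    rwa [mul_zero] at h
  have hev1 : ∀ᶠ k in atTop, 4 * F k * C * ((1 + cc) ^ 2 / cc ^ 3) ^ 2 ≤ 1 := by
    have h : Tendsto (fun k => 4 * F k * C * ((1 + cc) ^ 2 / cc ^ 3) ^ 2) atTop (𝓝 0) := by
      have := ((hFt.const_mul 4).mul_const C).mul_const (((1 + cc) ^ 2 / cc ^ 3) ^ 2)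
      simpa using this
    exact (h.eventually (gt_mem_nhds (show (0 : ℝ) < 1 by norm_num))).mono fun k hk => hk.le
  have hev2 : ∀ᶠ k in atTop, 2 * (2 * F k) / (c0 / 2) + k ^ (-(1 / 20000) : ℝ) ≤
      (1 / 1000 : ℝ) := by
    have h : Tendsto (fun k => 2 * (2 * F k) / (c0 / 2) + k ^ (-(1 / 20000) : ℝ)) atTop
        (𝓝 0) := by
      have h1 := ((hFt.const_mul 2).const_mul 2).div_const (c0 / 2)
      have h2 := tendsto_rpow_neg_atTop (show (0 : ℝ) < 1 / 20000 by norm_num)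
      have := h1.add h2
      simpa using this
    exact (h.eventually (gt_mem_nhds (show (0 : ℝ) < (1 / 1000 : ℝ) by norm_num))).mono
      fun k hk => hk.le
  obtain ⟨k6, h6⟩ := eventually_atTop.1 hev1
  obtain ⟨k7, h7⟩ := eventually_atTop.1 hev2
  obtain ⟨k8, h8⟩ := eventually_atTop.1
    ((tendsto_rpow_atTop (show (0 : ℝ) < 9 / 10000 by norm_num)).eventually_ge_atTop 2)
  refine ⟨max (max (max k1 k2) (max k3 k4)) (max (max k5 k6) (max k7 (max k8 16))),
    fun k hk => ?_⟩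
  simp only [ge_iff_le, max_le_iff] at hk
  obtain ⟨⟨⟨hk1, hk2⟩, hk3, hk4⟩, ⟨hk5, hk6⟩, hk7, hk8, hk9⟩ := hk
  have hk0 : 0 < k := by linarith
  obtain ⟨s, hs, hNs⟩ := hN k hk1
  have hEs := hE k hk2 s hs
  obtain ⟨hC1, hC2⟩ := hC k hk3 s hs
  obtain ⟨hQ1, hQ2⟩ := hQ k s (by linarith)
  have hkinv : k⁻¹ ≤ k ^ (-(1 / 20000) : ℝ) := by
    rw [← Real.rpow_neg_one]
    exact Real.rpow_le_rpow_of_exponent_le (by linarith) (by norm_num)
  have hFn : mQ.real {z | (0 : ℤ) ∈ Bset k s (ao k z)} + mQ.real (Nset k s) ≤ F k := by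
    have h1 : mQ.real {z | (0 : ℤ) ∈ Bset k s (ao k z)} ≤
        mQ.real {z | (0 : ℤ) ∈ Eset k s (ao k z)} :=
      measureReal_mono fun z hz => Bset_subset_Eset hz
    have h2 : mQ.real (Nset k s) ≤ mQ.real {z | (0 : ℤ) ∈ Eset k s (ao k z)} +
        mQ.real {z | NcMax k s (ao k z)} + mQ.real (Near k s) := by
      unfold Nset
      exact (measureReal_union_le _ _).trans (add_le_add (measureReal_union_le _ _) le_rfl)
    simp only [hF]
    linarith
  have hX := closure_bound_gen_inf (mp_Tz k) hQ1 (Bm := fun z => Bm k s (ao k z))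
    (Bp := fun z => Bp k s (ao k z)) (fun z => Bm_subset) (fun z => Bp_subset)
    (c := cc) (C := C) (F := F k) (by norm_num) hC0 (fun _ => Nset k s)
    (fun n z hz h0 i _ hi hiB => mem_Bm_of (fun h => hz (Or.inl (Or.inl h))) hi hiB)
    (fun n z hz h0 i hi _ hiB => mem_Bp_of (fun h => hz (Or.inl (Or.inl h))) hi hiB)
    (fun n => hdec k hk5 s hs n) (fun _ => hFn) (h6 k hk6)
  have hEq : Equi (Tz k) (fun z => ClInf cc (Bset k s (ao k z))) := by
    refine ⟨fun j z => ?_, fun i => meas_ClInf hQ1.meas cc i⟩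
    ext i
    simp only [ClInf, mem_iUnion, mem_preimage]
    refine exists_congr fun n => ?_
    have := (hQ1.cl cc n).shift j z
    rw [this]
    rfl
  have hlog : 0 < Real.log k := Real.log_pos (by linarith)
  have h9 := ent_ge_of_continuant' (k := k) (T := k ^ (999 / 1000 : ℝ)) (c₀ := c0 / 2)
    (m := 2 * F k) (m' := k ^ (-(1 / 20000) : ℝ)) (by norm_num)
    (Real.one_le_rpow (by linarith) (by norm_num)) hEq hX hQ2 hC1
    (fun z n hn hG hY => ratio_of_det hk9 (h8 k hk8) hs (hD k hk4) hL z n hn hG hY)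
  rw [Real.log_rpow hk0] at h9
  have hCC : Real.log (CC k) ≤ 2 * Real.log k := by
    have h2 : 2 * Real.log k = Real.log (k * k) := by rw [Real.log_mul hk0.ne' hk0.ne']; ring
    rw [h2]
    apply Real.log_le_log (by linarith [one_le_CC k])
    unfold CC
    rw [abs_of_pos hk0]
    nlinarith [Real.pi_lt_d2]
  have h10 := h7 k hk7
  have h11 : (2 * (2 * F k) / (c0 / 2) + k ^ (-(1 / 20000) : ℝ)) *
      (999 / 1000 * Real.log k + Real.log (CC k)) ≤ 1 / 1000 * (3 * Real.log k) := by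
    have h12 : 0 ≤ 999 / 1000 * Real.log k + Real.log (CC k) :=
      add_nonneg (by positivity) (Real.log_nonneg (one_le_CC k))
    have h13 : 999 / 1000 * Real.log k + Real.log (CC k) ≤ 3 * Real.log k := by linarith
    calc _ ≤ 1 / 1000 * (999 / 1000 * Real.log k + Real.log (CC k)) :=
          mul_le_mul_of_nonneg_right h10 h12
      _ ≤ _ := by linarith
  linarith

/-- **The composition theorem**, positivity. -/
theorem ent_pos_of_blocks (hN : NearBound) (hE : EBound) (hC : NcBound) (hQ : EquiB)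
    (hL : LongCl) (hD : DetCone) (hdec : Decor) :
    ∃ k0 : ℝ, ∀ k ≥ k0, 99 / 100 * Real.log k ≤ ent k ∧ 0 < ent k ∧
      0 < volume {z | z ∈ Q ∧ 0 < lyap k z} := by
  obtain ⟨k0, h⟩ := ent_ge_of_blocks hN hE hC hQ hL hD hdec
  refine ⟨max k0 2, fun k hk => ?_⟩
  have h1 := h k ((le_max_left _ _).trans hk)
  have h2 : 0 < Real.log k := Real.log_pos (by linarith [(le_max_right k0 2).trans hk])
  have h3 : 0 < ent k := by linarith
  exact ⟨h1, h3, (ent_pos_iff k).1 h3⟩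

end Vale.Agent.P108.Sk
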