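import Vale.Agent.P108.Sk.Main
import Vale.Agent.P108.H954.NearB
import Vale.Agent.P108.H786.Mass
import Vale.Agent.P108.H903.Long
import Vale.Agent.P108.H18.Freeze
import Vale.Agent.P108.H442.LineB
import Vale.Agent.P108.Por.PeakBound

/-!
# P108 skeleton: final composition from the remaining blocks
-/

open MeasureTheory Filter Set Topology

namespace Vale.Agent.P108.Sk

open Vale.Agent.P108 Vale.Agent.P108.Dyn Vale.Agent.P108.H786 P108C

/-- everything except [ZONE], [DET], [DECOR] -/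
theorem main_of (hZ : ∃ c1 : ℝ, 0 < c1 ∧ ∀ᶠ k in atTop, H442.ZoneAt k c1 cb cβ)
    (hD : DetCone) (hdec : Decor) :
    ∃ k0 : ℝ, ∀ k ≥ k0, 99 / 100 * Real.log k ≤ ent k ∧ 0 < ent k ∧
      0 < volume {z | z ∈ Q ∧ 0 < lyap k z} :=
  ent_pos_of_blocks H954.nearBound
    (eBound_of_peak (Por.peakBound_of_line (H442.peakLine_of_zone hZ))) ncBound equiB longCl hD hdec

end Vale.Agent.P108.Sk
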