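import Vale.Agent.P108.H786.Asm2
import Vale.Agent.P108.H786.Book
import Vale.Agent.P108.Cmb.Rec
import Vale.Agent.P108.Cmb.Pat
import Mathlib.Logic.Encodable.Basic
import Mathlib.Tactic.DeriveEncodable

/-!
# P108 skeleton: definitions

Everything is a function of the coefficient sequence `a : ℤ → ℝ` (for an orbit `a = ao k z`).
The parameter `s ∈ [0,1]` is a generic factor `1 + s` in all thresholds.

* `Dec` : elementary decisions, `Low k s a d : num k a d < (1 + s) * den k a d`;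
* `Peak` : peaks of radius `R` with frozen site `m - 1`, inner object `[m, n]`, window `[i, j]`;
* `Defect k s a o R` : critical times, dense windows of non-clean times, peaks; always `s0 k ≤ R`;
* `Bset` (zones), `Eset` (exclusion zones), `Bm`, `Bp` (zones of the defects strictly on the left /
  right of the base `0`), `Near` (some decision far from the base is nearly an equality),
  `NcMax` (the base is not clean or the non-clean times are dense near the base), `Nset`.
-/

open MeasureTheory Filter Set Topology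

namespace Vale.Agent.P108.Sk

open Vale.Agent.P108 Vale.Agent.P108.Dyn Vale.Agent.P108.H786 P108C

/-! ### constants -/

/-- `β`: critical times are `|a| < k^β` -/
noncomputable abbrev cβ : ℝ := 1 / 100
/-- `e`: non-clean times are `|a| < k^(1-e)` -/
noncomputable abbrev ce : ℝ := 1 / 10000
/-- `δ`: windows `[o-R, o+R]` with `≥ δ R` non-clean times are dense -/
noncomputable abbrev cδ : ℝ := 1 / 1000000
/-- `d`: environments grow at rate `1 - d` -/
noncomputable abbrev cd : ℝ := 1 / 5000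
/-- depth of the peaks -/
noncomputable abbrev ca : ℝ := 3 / 5
/-- an inner object of a peak of radius `R` has at most `R / cP` sites -/
abbrev cP : ℕ := 1000000
/-- sparseness of good ends -/
noncomputable abbrev c0 : ℝ := 1 / 10 ^ 9
/-- density threshold of the closure -/
noncomputable abbrev cc : ℝ := 1 / 10 ^ 16
/-- sparseness next to a longest run -/
noncomputable abbrev c1 : ℝ := 4 * cc
/-- exclusion zones have radius `cZ * R` -/
abbrev cZ : ℕ := 100

/-- `b`: the critical zones of the hole argument are `|a| < k^b` -/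
noncomputable abbrev cb : ℝ := 1 / 50

/-- least radius of a defect, `⌈k^(1-b) log² k⌉` -/
noncomputable abbrev s0 (k : ℝ) : ℕ := H786.s0 cb k

/-- continuants -/
abbrev D := H504.D

/-! ### elementary decisions -/

/-- elementary decisions: `crit t`, `nc t` : the size of the coefficient at `t`;
`c1 i j`, `c2 i j` : cone condition at the right / left end of `[i, j]`;
`gr i j` : growth on `[i, j]`; `pk R i m j` : peak of radius `R` in the window `[i, j]` with
frozen site `m - 1` -/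
inductive Dec where
  | crit (t : ℤ)
  | nc (t : ℤ)
  | c1 (i j : ℤ)
  | c2 (i j : ℤ)
  | gr (i j : ℤ)
  | pk (R : ℕ) (i m j : ℤ)
  deriving Encodable

namespace Dec

/-- left end of the window of a decision -/
def lo : Dec → ℤ
  | crit t => t
  | nc t => t
  | c1 i _ => i
  | c2 i _ => i
  | gr i _ => i
  | pk _ i _ _ => i

/-- right end of the window of a decision -/
def hi : Dec → ℤ
  | crit t => t
  | nc t => t
  | c1 _ j => j
  | c2 _ j => j
  | gr _ j => j
  | pk _ _ _ j => j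

/-- distance of the window to the base `0` (windows containing `0` have distance `≤ 0`) -/
def dst (d : Dec) : ℤ := max d.lo (-d.hi)

/-- numerator -/
noncomputable def num (a : ℤ → ℝ) : Dec → ℝ
  | crit t => |a t|
  | nc t => |a t|
  | c1 i j => |D a i j|
  | c2 i j => |D a i j|
  | gr i j => |D a i j|
  | pk _ i _ j => |D a i j|

/-- denominator -/
noncomputable def den (k : ℝ) (a : ℤ → ℝ) : Dec → ℝ
  | crit _ => k ^ cβ
  | nc _ => k ^ (1 - ce)
  | c1 i j => k ^ (cβ / 2) * |D a i (j - 1)|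
  | c2 i j => k ^ (cβ / 2) * |D a (i + 1) j|
  | gr i j => k ^ ((1 - cd) * ((j + 1 - i : ℤ) : ℝ))
  | pk R i m j => k ^ (-(ca * R)) * (|D a i (m - 2)| * |D a m j|)

/-- admissible decisions: far from the base compared with the length of the window -/
def Adm (k : ℝ) (d : Dec) : Prop :=
  d.lo ≤ d.hi ∧ (s0 k : ℤ) ≤ d.dst ∧ 30 * (d.hi - d.lo + 1) ≤ d.dst ∧
    match d with
    | pk R i m j => (R : ℤ) ≤ d.dst ∧ i < m ∧ m ≤ j
    | _ => True

end Dec

/-- the decision `d` has the outcome `low` -/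
def Low (k s : ℝ) (a : ℤ → ℝ) (d : Dec) : Prop := d.num a < (1 + s) * d.den k a

/-- critical times -/
def Crit (k s : ℝ) (a : ℤ → ℝ) : Set ℤ := {t | Low k s a (.crit t)}

/-- non-clean times -/
def NC (k s : ℝ) (a : ℤ → ℝ) : Set ℤ := {t | Low k s a (.nc t)}

/-! ### peaks -/

/-- **Peaks with pattern `S`** of radius `R`: frozen site `m - 1`, inner object `[m, n]`, window
`[i, j]`. -/
structure PeakPat (k s : ℝ) (a : ℤ → ℝ) (R : ℕ) (m n i j : ℤ) (S : Finset ℤ) : Prop where
  hmn : m ≤ n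
  obj : (cP : ℤ) * (n - m + 1) ≤ R
  i1 : m - i ≤ R
  i2 : (R : ℤ) ≤ 2 * (m - i)
  j1 : j - n ≤ R
  j2 : (R : ℤ) ≤ 2 * (j - n)
  /-- the environment grows -/
  grL : ¬ Low k s a (.gr i (m - 2))
  grR : ¬ Low k s a (.gr m j)
  /-- the pattern is sparse next to the inner object -/
  spL : ∀ y : ℕ, 1 ≤ y → i ≤ m - y → (ms (↑S) (m - y) m : ℝ) ≤ c1 * y
  spR : ∀ y : ℕ, 1 ≤ y → n + y ≤ j → (ms (↑S) (n + 1) (n + 1 + y) : ℝ) ≤ c1 * y
  /-- the cone condition (with Dirichlet site outside the window) holds at all sites where the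
  pattern is sparse on the outer side -/
  coneL : ∀ p, i < p → p < m → (∀ y : ℕ, 1 ≤ y → i ≤ p - y → (ms (↑S) (p - y) p : ℝ) < c0 * y) →
      ¬ Low k s a (.c1 i (p - 1))
  coneR : ∀ r, n < r → r < j →
      (∀ y : ℕ, 1 ≤ y → r + y ≤ j → (ms (↑S) (r + 1) (r + 1 + y) : ℝ) < c0 * y) →
      ¬ Low k s a (.c2 (r + 1) j)
  /-- the window is deeply non-hyperbolic -/
  deep : Low k s a (.pk R i m j)

/-- **Peaks** of radius `R`: frozen site `m - 1`, inner object `[m, n]`, window `[i, j]`. -/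
def Peak (k s : ℝ) (a : ℤ → ℝ) (R : ℕ) (m n i j : ℤ) : Prop :=
  ∃ S ∈ patterns (s0 k) i (j + 1), PeakPat k s a R m n i j S

/-! ### defects and bad sets -/

/-- **Defects** with centre `o` and radius `R ≥ s0`. -/
def Defect (k s : ℝ) (a : ℤ → ℝ) (o : ℤ) (R : ℕ) : Prop :=
  (R = s0 k ∧ o ∈ Crit k s a) ∨
  (∃ l : ℕ, R = s0 k * 2 ^ l ∧ cδ * R ≤ ms (NC k s a) (o - R) (o + R + 1)) ∨
  (∃ l : ℕ, R = s0 k * 2 ^ l ∧ ∃ n i j, Peak k s a R o n i j)

/-- the bad set: zones of the defects -/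
def Bset (k s : ℝ) (a : ℤ → ℝ) : Set ℤ := {t | ∃ o R, Defect k s a o R ∧ |t - o| ≤ R}

/-- the exclusion set -/
def Eset (k s : ℝ) (a : ℤ → ℝ) : Set ℤ := {t | ∃ o R, Defect k s a o R ∧ |t - o| ≤ cZ * R}

/-- zones of the defects whose exclusion zone is on the left of the base `0` -/
def Bm (k s : ℝ) (a : ℤ → ℝ) : Set ℤ :=
  {t | ∃ o R, Defect k s a o R ∧ |t - o| ≤ R ∧ o + cZ * R < 0}

/-- zones of the defects whose exclusion zone is on the right of the base `0` -/
def Bp (k s : ℝ) (a : ℤ → ℝ) : Set ℤ :=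
  {t | ∃ o R, Defect k s a o R ∧ |t - o| ≤ R ∧ 0 < o - cZ * R}

/-- the base is non-clean, or the non-clean times are dense at some scale next to the base -/
def NcMax (k s : ℝ) (a : ℤ → ℝ) : Prop :=
  (0 : ℤ) ∈ NC k s a ∨ (∃ y : ℕ, 1 ≤ y ∧ (1 / 20 : ℝ) * y ≤ ms (NC k s a) (-y) 0) ∨
    ∃ y : ℕ, 1 ≤ y ∧ (1 / 20 : ℝ) * y ≤ ms (NC k s a) 1 (1 + y)

/-- some admissible decision is nearly an equality -/
def Near (k s : ℝ) : Set (ℝ × ℝ) :=
  {z | ∃ d : Dec, d.Adm k ∧
    |d.num (ao k z) / d.den k (ao k z) - (1 + s)| ≤ k ^ (-((d.dst : ℝ) / 12))}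

/-- the exceptional set of the recursion -/
def Nset (k s : ℝ) : Set (ℝ × ℝ) :=
  {z | (0 : ℤ) ∈ Eset k s (ao k z)} ∪ {z | NcMax k s (ao k z)} ∪ Near k s

/-- `[i, j]` is a good window for `X`: `X` is `c0`-sparse at both ends -/
def GoodWin (X : Set ℤ) (i j : ℤ) : Prop :=
  ∀ y : ℕ, 1 ≤ y → i + y ≤ j + 1 →
    (ms X i (i + y) : ℝ) < c0 * y ∧ (ms X (j + 1 - y) (j + 1) : ℝ) < c0 * y

/-- `X` is the trace on `[u, w)` of a union of intervals of length `s` -/
def LongZ (s : ℕ) (u w : ℤ) (X : Set ℤ) : Prop :=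
  X ⊆ Ico u w ∧ ∀ i ∈ X, ∃ b : ℤ, b ≤ i ∧ i < b + s ∧
    ∀ t, b ≤ t → t < b + s → u ≤ t → t < w → t ∈ X

/-- the setting of the deterministic part: `X ⊆ [u, w)` closed, made of long zones, and containing
the bad set of the sequence `a` in `[u, w)` -/
structure Setting (k s : ℝ) (a : ℤ → ℝ) (u w : ℤ) (X : Set ℤ) : Prop where
  hs0 : 0 ≤ s
  hs1 : s ≤ 1
  bd : ∀ t, |a t| ≤ 8 * k
  closed : ∀ n, NClosed cc n X
  long : LongZ (s0 k) u w X
  bad : Bset k s a ∩ Ico u w ⊆ X

end Vale.Agent.P108.Sk
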